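import Vale.Agent.P144DW.TopA
import Vale.Agent.P144DY.Cont

/-!
# Pairs of energies: from the lattice to the continuum
-/

namespace Vale.Agent.P144Z

open Finset Filter Topology MeasureTheory P144 UL P144DD P144DR P144DY

variable {Q : Cls} {q : Par} {L : ℕ} {σ γ : ℝ} {D : Set ℂ} {E E' : Fam}

theorem cen_lcor (E : (Config → ℝ) → ℝ) {m : ℕ} (y : Fin m → Site) (j : Fin m → Fin 2) :
    cen (momE E) y j = lcor E (Fin.elim0 : Fin 0 → Site) y j := by simp [cen, momE, lcor]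

theorem corr_ens (hP : Prob E) {a : ℝ} (ha : 0 < a) {m : ℕ} (y : Fin m → ℂ) (j : Fin m → Fin 2) :
    corr a (E a) (ens y j) = a⁻¹ ^ m * cen (momE (E a)) (fun k => fl a (y k)) j := by
  obtain ⟨μ, -, h⟩ := hP
  rw [funext (h a ha), cen_lcor, lcor, ← integral_const_mul]
  refine integral_congr_ae (Eventually.of_forall fun σ => ?_)
  change (∏ i : Fin 0, _) * ∏ k : Fin m, a⁻¹ * _ = _
  simp only [Fin.prod_univ_zero, one_mul]
  rw [prod_mul_distrib, prod_const, card_univ, Fintype.card_fin]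
  rfl

theorem cen_le (hP : Prob E) {a : ℝ} (ha : 0 < a) {m : ℕ} (y : Fin m → Site) (j : Fin m → Fin 2) :
    |cen (momE (E a)) y j| ≤ 2 ^ m := by
  obtain ⟨μ, hμ, h⟩ := hP
  have k : ∀ (F : Config → ℝ) (c : ℝ), (∀ σ, |F σ| ≤ c) → |E a F| ≤ c := fun F c hF => by
    rw [h a ha]
    simpa using norm_integral_le_of_norm_le_const (μ := μ a) (f := F) (Eventually.of_forall hF)
  rw [cen_lcor]
  refine k _ _ fun σ => ?_
  rw [univ_eq_empty, prod_empty, one_mul, abs_prod]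
  have b : ∀ (τ : Config) (u v : Site), |sp (τ u) * sp (τ v)| ≤ 1 := fun τ u v => by
    rw [abs_mul, U1.abs_sp, U1.abs_sp, one_mul]
  refine (prod_le_prod (g := fun _ => 2) (fun _ _ => abs_nonneg _) fun i _ => ?_).trans (by simp)
  exact (abs_sub _ _).trans ((add_le_add (b _ _ _) (k _ 1 fun τ => b τ _ _)).trans (by norm_num))

theorem fl_two (a : ℝ) (u v : ℂ) : (fun k => fl a (![u, v] k)) = ![fl a u, fl a v] := by
  funext k
  fin_cases k <;> rfl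

theorem rp_small {θ c : ℝ} (hθ : 0 < θ) (hc : 0 < c) : ∀ᶠ a in 𝓝[>] (0 : ℝ), a ^ θ ≤ c := by
  have h := (Real.continuousAt_rpow_const 0 θ (Or.inr hθ.le)).tendsto
  rw [Real.zero_rpow hθ.ne'] at h
  exact nhdsWithin_le_nhds (h.eventually (ge_mem_nhds hc))

theorem rp_fin {C B κ θ : ℝ} (hC : 0 ≤ C) (hB : 0 < B) (hκ : 0 < κ) (hθ : 0 < θ) :
    ∀ᶠ a in 𝓝[>] (0 : ℝ), ∀ x, 0 ≤ x → x ≤ B * a ^ θ → C * x ^ κ ≤ a ^ (θ * κ / 2) := by
  filter_upwards [rp_small (θ := θ * κ / 2) (c := (C * B ^ κ + 1)⁻¹) (by positivity) (by positivity),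
    self_mem_nhdsWithin] with a h ha x x0 hx
  have ha' : 0 < a := ha
  have e : (B * a ^ θ) ^ κ = B ^ κ * a ^ (θ * κ / 2) * a ^ (θ * κ / 2) := by
    rw [Real.mul_rpow hB.le (by positivity), ← Real.rpow_mul ha'.le, mul_assoc, ← Real.rpow_add ha',
      add_halves]
  have h1 := Real.rpow_le_rpow x0 hx hκ.le
  rw [e] at h1
  rw [inv_eq_one_div, le_div_iff₀ (by positivity)] at h
  have h2 : 0 < a ^ (θ * κ / 2) := by positivity
  generalize a ^ (θ * κ / 2) = w at *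
  calc C * x ^ κ ≤ C * (B ^ κ * w * w) := mul_le_mul_of_nonneg_left h1 hC
    _ = w * (C * B ^ κ) * w := by ring
    _ ≤ 1 * w := mul_le_mul_of_nonneg_right (by nlinarith) h2.le
    _ = w := one_mul w

/-- In the bulk of `D` the family is approximated by mixtures of macroscopic size. -/
def FamA (Q : Cls) (q : Par) (L : ℕ) (σ γ : ℝ) (D : Set ℂ) (E : Fam) : Prop :=
  ∀ s₀ > (0 : ℝ), ∃ (J₁ Λ : ℕ) (Γ c : ℝ), 1 ≤ Γ ∧ 0 < c ∧ ∀ᶠ a in 𝓝[>] (0 : ℝ),
    Apx Q q L J₁ Λ Γ σ γ (momE (E a)) (fun x => ∃ z, Metric.ball z s₀ ⊆ D ∧ x = fl a z) ⌊c / a⌋₊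

theorem half_le_floor {x : ℝ} (h : 1 ≤ x) : x ≤ 2 * ⌊x⌋₊ := by
  have h1 := Nat.lt_floor_add_one x
  have h2 : (1 : ℝ) ≤ ⌊x⌋₊ := by exact_mod_cast Nat.le_floor (by exact_mod_cast h)
  linarith

theorem cvm_of (hC : CoreV Q q L σ γ) (hP : Prob E) (hF : FamA Q q L σ γ D E) : CVM D E := by
  intro θ hθ k s₀ hs₀
  rcases le_or_gt θ 1 with h1 | h1
  · obtain ⟨J₁, Λ, Γ, c, hΓ, hc, hF⟩ := hF s₀ hs₀
    obtain ⟨C, κ, p, hC0, hκ, hC⟩ := hC.apx J₁ Λ (3 * k + 1) hΓ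
    refine ⟨θ / 2 * κ / 2, by positivity, ?_⟩
    filter_upwards [hF, rp_fin hC0 (show (0 : ℝ) < 16 by norm_num) hκ (half_pos hθ),
      Ioo_mem_nhdsGT one_pos, rp_small (half_pos hθ) hc,
      rp_small (c := 1 / (16 * (p + 1))) (half_pos hθ) (by positivity)] with
      a hA f1 ⟨ha, ha1⟩ f2 f3 s hs y j hI n1 n2 n3 n4 n5
    have e1 : a ^ θ = a ^ (θ / 2) * a ^ (θ / 2) := by rw [← Real.rpow_add ha, add_halves]
    have e2 : a ≤ a ^ θ := by
      simpa using Real.rpow_le_rpow_of_exponent_ge ha ha1.le h1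
    have t0 : 0 < a ^ (θ / 2) := by positivity
    rw [e1] at e2 hs
    generalize a ^ (θ / 2) = t at *
    rw [le_div_iff₀ (by positivity)] at f3
    have s0 : 0 ≤ s := (norm_nonneg _).trans n1
    have p0 : (0 : ℝ) ≤ p := Nat.cast_nonneg p
    have u1 : 1 ≤ t * (t / a) := by rw [← mul_div_assoc, one_le_div ha]; exact e2
    have u0 : 0 < t / a := by positivity
    have u2 : 16 ≤ t / a := by nlinarith
    have u3 : s / a ≤ t * (t / a) := by
      rw [← mul_div_assoc]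
      exact div_le_div_of_nonneg_right hs ha.le
    have d1 : (⌊t / a / 4⌋₊ : ℝ) ≤ t / a / 4 := Nat.floor_le (by positivity)
    have d2 := half_le_floor (x := t / a / 4) (by linarith)
    have d3 : ⌊t / a / 4⌋₊ ≤ ⌊c / a⌋₊ := Nat.floor_le_floor (by
      have := div_le_div_of_nonneg_right f2 ha.le
      linarith)
    generalize ⌊t / a / 4⌋₊ = d at d1 d2 d3
    have s1 : (⌊s / a⌋₊ : ℝ) ≤ s / a := Nat.floor_le (by positivity)
    have s2 := (Nat.lt_floor_add_one (s / a)).le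
    have s3 : ∀ z w : ℂ, ‖z - w‖ ≤ s → zd (fl a z) (fl a w) ≤ ⌊s / a⌋₊ + 1 := fun z w h => by
      have := (zd_fl ha z w).1
      have h2 := div_le_div_of_nonneg_right h ha.le
      have h3 := Nat.lt_floor_add_one (s / a)
      have h4 : (zd (fl a z) (fl a w) : ℝ) < ⌊s / a⌋₊ + 1 + 1 := by linarith
      exact Nat.lt_succ_iff.1 (by exact_mod_cast h4)
    have s4 : ∀ z w : ℂ, s ≤ k * (‖z - w‖ + a) →
        ⌊s / a⌋₊ + 1 ≤ (3 * k + 1) * (zd (fl a z) (fl a w) + 1) := fun z w h => by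
      have h2 := (zd_fl ha z w).2
      have h3 := div_le_div_of_nonneg_right h ha.le
      rw [mul_div_assoc, add_div, div_self ha.ne'] at h3
      have h4 : (0 : ℝ) ≤ zd (fl a z) (fl a w) := Nat.cast_nonneg _
      have h5 : (0 : ℝ) ≤ k := Nat.cast_nonneg _
      have h6 : (⌊s / a⌋₊ + 1 : ℝ) ≤ (3 * k + 1) * (zd (fl a z) (fl a w) + 1) := by nlinarith
      exact_mod_cast h6
    have s5 : ((⌊s / a⌋₊ + 1 : ℕ) : ℝ) ≤ 16 * t * d := by
      push_cast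
      nlinarith
    have d0 : (0 : ℝ) < d := by linarith
    have key := (hC (⌊s / a⌋₊ + 1) d (by omega) (by
      have : (p : ℝ) * (⌊s / a⌋₊ + 1 : ℕ) ≤ d := by nlinarith
      exact_mod_cast this) _ _ _ d3 hA).1 (fun i => fl a (y i)) j
      (fun i => ⟨y i, (hI (Sum.inr i)).2, rfl⟩) (s3 _ _ n1) (s3 _ _ n2) (s4 _ _ n3) (s4 _ _ n4) (by
        have h2 := (zd_fl ha (y 0) (y 2)).2
        have h3 := div_le_div_of_nonneg_right n5 ha.le
        have h4 : (d : ℝ) ≤ zd (fl a (y 0)) (fl a (y 2)) := by linarith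
        exact_mod_cast h4)
    refine le_trans ?_ (key.trans (f1 _ (by positivity) ((div_le_iff₀ d0).2 s5)))
    rw [corr_ens hP ha, corr_ens hP ha, corr_ens hP ha, fl_two, fl_two, mul_mul_mul_comm, ← pow_add,
      ← mul_sub, abs_mul, abs_of_nonneg (by positivity), mul_right_comm, ← mul_pow, mul_comm]
    refine mul_le_mul_of_nonneg_left (pow_le_pow_left₀ (by positivity) ?_ 4) (abs_nonneg _)
    rw [← div_eq_inv_mul]
    exact_mod_cast s2
  · refine ⟨θ - 1, by linarith, ?_⟩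
    filter_upwards [rp_small (c := 1 / 32) (sub_pos.2 h1) (by norm_num), self_mem_nhdsWithin] with
      a f1 ha s hs y j _ n1 _ _ _ _
    have ha' : 0 < a := ha
    have s0 : 0 ≤ s := (norm_nonneg _).trans n1
    have e1 : a⁻¹ * s ≤ a ^ (θ - 1) := by
      rw [Real.rpow_sub_one ha'.ne', ← div_eq_inv_mul]
      exact div_le_div_of_nonneg_right hs ha'.le
    have w0 : 0 < a ^ (θ - 1) := by positivity
    generalize a ^ (θ - 1) = w at *
    rw [corr_ens hP ha', corr_ens hP ha', corr_ens hP ha', mul_mul_mul_comm, ← pow_add,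
      ← mul_sub, abs_mul, abs_of_nonneg (by positivity), mul_right_comm, ← mul_pow]
    have b1 := cen_le hP ha' (fun k => fl a (y k)) j
    have b2 := mul_le_mul (cen_le hP ha' (fun k => fl a (![y 0, y 1] k)) ![j 0, j 1])
      (cen_le hP ha' (fun k => fl a (![y 2, y 3] k)) ![j 2, j 3]) (abs_nonneg _) (by positivity)
    rw [← abs_mul] at b2
    have b3 : (a⁻¹ * s) ^ 4 ≤ w ^ 4 := pow_le_pow_left₀ (by positivity) e1 4
    have b4 : w ^ 3 ≤ (1 / 32) ^ 3 := pow_le_pow_left₀ w0.le f1 3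
    refine (mul_le_mul b3 ((abs_sub _ _).trans (add_le_add b1 b2)) (abs_nonneg _)
      (by positivity)).trans ?_
    nlinarith

theorem loc_of (hC : CoreV Q q L σ γ) (hP : Prob E) (hP' : Prob E') (hF : FamA Q q L σ γ D E)
    (hF' : FamA Q q L σ γ D E') : LOC D E E' := by
  intro θ hθ s₀ hs₀
  obtain ⟨J₁, Λ, Γ, c, hΓ, hc, hF⟩ := hF s₀ hs₀
  obtain ⟨J₂, Λ', Γ', c', hΓ', hc', hF'⟩ := hF' s₀ hs₀
  obtain ⟨C, κ, p, hC0, hκ, hC⟩ := hC.apx (max J₁ J₂) (max Λ Λ') 1 (le_max_of_le_left hΓ : 1 ≤ max Γ Γ')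
  obtain ⟨b, hb, b1, b2⟩ : ∃ b > (0 : ℝ), b ≤ c ∧ b ≤ c' :=
    ⟨min c c', lt_min hc hc', min_le_left _ _, min_le_right _ _⟩
  have hθ' : 0 < min θ 1 := lt_min hθ one_pos
  refine ⟨min θ 1 * κ / 2, by positivity, ?_⟩
  filter_upwards [hF, hF', rp_fin (C := 9 * C) (B := 6 / b) (by positivity) (by positivity) hκ hθ',
    Ioo_mem_nhdsGT one_pos, rp_small (c := b / (6 * (p + 1))) hθ' (by positivity)] with
    a hA hA' f1 ⟨ha, ha1⟩ f2 y j hI n1
  have e1 : a ≤ a ^ min θ 1 := by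
    simpa using Real.rpow_le_rpow_of_exponent_ge ha ha1.le (min_le_right θ 1)
  replace n1 := n1.trans (Real.rpow_le_rpow_of_exponent_ge ha ha1.le (min_le_left θ 1))
  generalize a ^ min θ 1 = t at *
  rw [le_div_iff₀ (by positivity)] at f2
  have p0 : (0 : ℝ) ≤ p := Nat.cast_nonneg p
  have t0 : 0 < t := ha.trans_le e1
  have d2 := half_le_floor (x := b / a) ((one_le_div ha).2 (by nlinarith))
  have d3 : ∀ c, b ≤ c → ⌊b / a⌋₊ ≤ ⌊c / a⌋₊ := fun c h =>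
    Nat.floor_le_floor (div_le_div_of_nonneg_right h ha.le)
  have d0 : (0 : ℝ) < ⌊b / a⌋₊ := by
    have : 0 < b / a := by positivity
    linarith
  generalize ⌊b / a⌋₊ = d at d0 d2 d3
  obtain ⟨z1, z2⟩ := zd_fl ha (y 0) (y 1)
  have u1 : 1 ≤ t / a := (one_le_div ha).2 e1
  have u2 := div_le_div_of_nonneg_right n1 ha.le
  have s5 : ((zd (fl a (y 0)) (fl a (y 1)) + 1 : ℕ) : ℝ) ≤ 6 / b * t * d := by
    have : 6 / b * t * (b / a) = 6 * (t / a) := by field_simp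
    have h2 := mul_le_mul_of_nonneg_left d2 (show 0 ≤ 6 / b * t by positivity)
    push_cast
    linarith
  have key := (hC (zd (fl a (y 0)) (fl a (y 1)) + 1) d (by omega) (by
    have h2 : (p : ℝ) * (6 / b * t) ≤ 1 := by
      rw [div_mul_eq_mul_div, ← mul_div_assoc, div_le_one hb]
      nlinarith
    have : (p : ℝ) * (zd (fl a (y 0)) (fl a (y 1)) + 1 : ℕ) ≤ d := by nlinarith
    exact_mod_cast this) _ _ _ (d3 c b1) (hA.mono (le_max_left _ _) (le_max_left _ _)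
      (by linarith) (le_max_left _ _))).2 _ _ _ (d3 c' b2) (hA'.mono (le_max_right _ _)
      (le_max_right _ _) (by linarith) (le_max_right _ _)) (fun i => fl a (y i)) j
      (fun i => ⟨⟨y i, (hI (Sum.inr i)).2, rfl⟩, y i, (hI (Sum.inr i)).2, rfl⟩) (Nat.le_succ _)
      (one_mul _).ge
  refine le_trans ?_ (f1 _ (by positivity) ((div_le_iff₀ d0).2 s5))
  rw [mul_assoc, corr_ens hP ha, corr_ens hP' ha, ← mul_sub, abs_mul, abs_of_nonneg (by positivity),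
    mul_right_comm, ← mul_pow, mul_comm]
  refine le_trans ?_ (mul_le_mul_of_nonneg_left key (by norm_num))
  rw [mul_left_comm, show (9 : ℝ) = 3 ^ 2 by norm_num, ← mul_pow]
  refine mul_le_mul_of_nonneg_left (pow_le_pow_left₀ (by positivity) ?_ 2) (abs_nonneg _)
  rw [← div_eq_inv_mul, add_div, div_self ha.ne']
  have : (0 : ℝ) ≤ zd (fl a (y 0)) (fl a (y 1)) := Nat.cast_nonneg _
  push_cast
  linarith

theorem famA_dom {Raw : Finset Site → ℕ → Prop} {J lam β T ρ : ℝ} {b : Option (ℝ → Config)}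
    (hM : MixAt Raw Q q L σ γ) (hr : UL.Rel J lam β q) (hb : StdBC b) (hT : 0 < T) (hρ : 0 < ρ)
    (h1 : ∀ a > (0 : ℝ), (∀ x, x ∈ disc D a ↔ (⟨a * x.1, a * x.2⟩ : ℂ) ∈ D) ∧
      (∀ x ∈ disc D a, a * zd x 0 ≤ T) ∧ ∀ r : ℕ, 1 ≤ r → a * r ≤ ρ → Raw (disc D a) r) :
    FamA Q q L σ γ D (inDom J lam q.V β D b) := by
  intro s₀ hs₀
  obtain ⟨c, hc, c1, c2⟩ : ∃ c > (0 : ℝ), 5 * c ≤ s₀ ∧ c ≤ ρ :=
    ⟨min (s₀ / 5) ρ, by positivity, by linarith [min_le_left (s₀ / 5) ρ], min_le_right _ _⟩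
  obtain ⟨J₁, Λ, r₀, Γ, hΓ, hM⟩ := hM J lam β hr ⌈2 * T / c⌉₊
  refine ⟨J₁, Λ, Γ, c, hΓ, hc, ?_⟩
  filter_upwards [Ioo_mem_nhdsGT (show 0 < c / (r₀ + 1) by positivity)] with a ⟨ha, hac⟩
  obtain ⟨d1, d2, d3⟩ := h1 a ha
  rw [lt_div_iff₀' (by positivity)] at hac
  have r1 : (⌊c / a⌋₊ : ℝ) ≤ c / a := Nat.floor_le (by positivity)
  have r3 : r₀ + 1 ≤ ⌊c / a⌋₊ := Nat.le_floor (by
    rw [le_div_iff₀ ha]
    exact_mod_cast hac.le)
  have r0 : (0 : ℝ) ≤ r₀ := Nat.cast_nonneg _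
  have r2 := half_le_floor (x := c / a) ((one_le_div ha).2 (by nlinarith))
  generalize ⌊c / a⌋₊ = r at r1 r2 r3
  have key := fun b hb => hM r (by omega) (disc D a) b hb
    (d3 r (by omega) (((le_div_iff₀' ha).1 r1).trans c2)) fun v hv => by
      have : (zd v 0 : ℝ) ≤ (⌈2 * T / c⌉₊ : ℝ) * r := by
        calc (zd v 0 : ℝ) ≤ T / a := by
              rw [le_div_iff₀' ha]
              exact d2 v hv
          _ = 2 * T / c * (c / a / 2) := by field_simp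
          _ ≤ _ := mul_le_mul (Nat.le_ceil _) (by linarith) (by positivity) (by positivity)
      exact_mod_cast this
  have hS : ∀ x, (∃ z, Metric.ball z s₀ ⊆ D ∧ x = fl a z) → ∀ v, zd v x ≤ r → v ∈ disc D a := by
    rintro _ ⟨z, hz, rfl⟩ v hv
    refine (d1 v).2 (hz ?_)
    have u1 := ins_fl ha z v
    have u2 : (zd v (fl a z) : ℝ) ≤ r := by exact_mod_cast hv
    have u3 := (le_div_iff₀' ha).1 r1
    rw [Metric.mem_ball, dist_eq_norm]
    nlinarith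
  rcases hb with rfl | rfl | rfl
  · exact (key none (Or.inl rfl)).apx hS fun _ _ _ => rfl
  · exact (key _ (Or.inr rfl)).apx hS fun _ _ _ => rfl
  · refine (key _ (Or.inr rfl)).apx hS fun m y j => ?_
    rw [cen_lcor, cen_lcor]
    exact (U2D.lcor_not (η := fun _ => true) hr.pot _ _ _ _).trans (one_mul _)

theorem blkV_of (h : LatV) : BlkV := by
  obtain ⟨ε₀, h0, h⟩ := h
  refine ⟨ε₀, h0, fun ε hε h1 => ?_⟩
  obtain ⟨L₀, h⟩ := h ε hε h1
  refine ⟨max L₀ (max 2 ⌈ε⁻¹⌉₊), fun L hL => ?_⟩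
  obtain ⟨η₀, hη, h⟩ := h L (le_of_max_le_left hL)
  have l2 : 2 ≤ L := le_of_max_le_left (le_of_max_le_right hL)
  have l3 : 1 ≤ ε * L :=
    (inv_le_iff_one_le_mul₀' hε).1 (Nat.ceil_le.1 (le_of_max_le_right (le_of_max_le_right hL)))
  refine ⟨η₀, hη, fun R => ?_⟩
  obtain ⟨δ₀, hδ, h⟩ := h R
  refine ⟨δ₀, hδ, fun q hR hq J lam β _ hr μ hμ => ?_⟩
  have pl : ∀ k N σ γ D, 0 ≤ γ → FamA (QU L ε k N) q L σ γ D (famOf μ) := fun k N σ γ D hγ s₀ _ => by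
    obtain ⟨Γ, hΓ, h⟩ := apx_plane (Q := QU L ε k N) (σ := σ) hr hμ l2 hγ
      fun M _ A J hA => qu_flat hA hε (by omega) l3 k N J
    exact ⟨0, 16 * L, Γ, 1, hΓ, one_pos, Eventually.of_forall fun a => h _ _⟩
  have pm : Prob (famOf μ) := ⟨fun _ => μ, fun _ => hμ.1, fun _ _ _ => rfl⟩
  refine ⟨?_, fun D b ⟨N, k₀, Raw, g, T, hT, ρ, hρ, d⟩ hb => ?_⟩
  · obtain ⟨k, h⟩ := h q hR hq 0
    obtain ⟨σ, γ, hγ, hC, -⟩ := h k le_rfl
    exact cvm_of hC pm (pl _ _ _ _ _ hγ)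
  · obtain ⟨k, h⟩ := h q hR hq N
    obtain ⟨σ, γ, hγ, hC, hM⟩ := h (max k k₀) (le_max_left _ _)
    have f := famA_dom (hM Raw (g _ (le_max_right _ _))) ⟨hr.pot, hr.range, hr.mu, hr.x⟩ hb hT hρ d
    obtain ⟨ν, n1, n2⟩ := P144F.rep_dom J lam q.V β D b
    have pd : Prob (inDom J lam q.V β D b) := ⟨ν, n1, fun a _ => n2 a⟩
    exact ⟨cvm_of hC pd f, loc_of hC pd pm f (pl _ _ _ _ _ hγ)⟩

end Vale.Agent.P144Z
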