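import Vale.Agent.P144DX.VDefs

/-!
# Pairs of energies: limits of mixtures; the plane
-/

namespace Vale.Agent.P144Z

open Finset Matrix Filter Topology MeasureTheory P144 UL

variable {Q : Cls} {q : Par} {L J₁ J₂ Λ Λ' : ℕ} {Γ Γ' σ γ : ℝ} {mo : Mom} {S : Site → Prop} {r : ℕ}

theorem MixM.mono (h : MixM Q q L J₁ Λ Γ σ γ mo S r) (hJ : J₁ ≤ J₂) (hΛ : Λ ≤ Λ') (h0 : 0 ≤ Γ)
    (hΓ : Γ ≤ Γ') : MixM Q q L J₂ Λ' Γ' σ γ mo S r := by
  obtain ⟨M, N, i0, ι, I, A, u, w, h1, h2, h3, h4⟩ := h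
  refine ⟨M, N, i0, ι, I, A, u, w, h1.trans (Nat.mul_le_mul_right _ hΛ), fun i hi => ?_,
    h3.trans hΓ, h4⟩
  have k := h2 i hi
  exact ⟨k.w, k.nf, k.lo, k.hi.trans (Nat.mul_le_mul_right _ hΛ), k.R_le, fun φ => (k.gap φ).trans
    (mul_le_mul_of_nonneg_right (pow_le_pow_left₀ (by positivity) (by gcongr) 2) (C.dot_nonneg _)),
    fun J a b => k.cls J (hJ.trans a) b, k.ok, k.off, k.wt⟩

/-- The centred moments at the points of `S` are limits of those of mixtures. -/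
def Apx (Q : Cls) (q : Par) (L J₁ Λ : ℕ) (Γ σ γ : ℝ) (mo₀ : Mom) (S : Site → Prop) (r : ℕ) :
    Prop :=
  ∃ (mo : ℕ → Mom) (T : ℕ → Site → Prop),
    (∀ᶠ n in atTop, MixM Q q L J₁ Λ Γ σ γ (mo n) (T n) r) ∧ (∀ x, S x → ∀ᶠ n in atTop, T n x) ∧
    ∀ (m : ℕ) (y : Fin m → Site) (j : Fin m → Fin 2),
      Tendsto (fun n => cen (mo n) y j) atTop (𝓝 (cen mo₀ y j))

theorem Apx.mono (h : Apx Q q L J₁ Λ Γ σ γ mo S r) (hJ : J₁ ≤ J₂) (hΛ : Λ ≤ Λ') (h0 : 0 ≤ Γ)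
    (hΓ : Γ ≤ Γ') : Apx Q q L J₂ Λ' Γ' σ γ mo S r := by
  obtain ⟨mo, T, h1, h2⟩ := h
  exact ⟨mo, T, h1.mono fun n k => k.mono hJ hΛ h0 hΓ, h2⟩

theorem MixM.apx {mo₀ : Mom} {S₀ : Site → Prop} (h : MixM Q q L J₁ Λ Γ σ γ mo S r)
    (hS : ∀ x, S₀ x → S x) (he : ∀ (m : ℕ) (y : Fin m → Site) j, cen mo₀ y j = cen mo y j) :
    Apx Q q L J₁ Λ Γ σ γ mo₀ S₀ r :=
  ⟨fun _ => mo, fun _ => S, Eventually.of_forall fun _ => h,
    fun x hx => Eventually.of_forall fun _ => hS x hx, fun m y j => by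
      rw [he]
      exact tendsto_const_nhds⟩

theorem CoreV.apx (h : CoreV Q q L σ γ) (J₁ Λ k : ℕ) {Γ : ℝ} (hΓ : 1 ≤ Γ) :
    ∃ (C κ : ℝ) (p : ℕ), 0 ≤ C ∧ 0 < κ ∧ ∀ s d : ℕ, 1 ≤ s → p * s ≤ d →
    ∀ (mo : Mom) (S : Site → Prop) (r : ℕ), d ≤ r → Apx Q q L J₁ Λ Γ σ γ mo S r →
      (∀ (y : Fin 4 → Site) (j : Fin 4 → Fin 2), (∀ i, S (y i)) → zd (y 0) (y 1) ≤ s →
        zd (y 2) (y 3) ≤ s → s ≤ k * (zd (y 0) (y 1) + 1) → s ≤ k * (zd (y 2) (y 3) + 1) →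
        d ≤ zd (y 0) (y 2) →
          |cen mo y j - cen mo ![y 0, y 1] ![j 0, j 1] * cen mo ![y 2, y 3] ![j 2, j 3]| *
            (s : ℝ) ^ 4 ≤ C * ((s : ℝ) / d) ^ κ) ∧
      ∀ (mo' : Mom) (S' : Site → Prop) (r' : ℕ), d ≤ r' → Apx Q q L J₁ Λ Γ σ γ mo' S' r' →
        ∀ (y : Fin 2 → Site) (j : Fin 2 → Fin 2), (∀ i, S (y i) ∧ S' (y i)) →
          zd (y 0) (y 1) ≤ s → s ≤ k * (zd (y 0) (y 1) + 1) →
            |cen mo y j - cen mo' y j| * (s : ℝ) ^ 2 ≤ C * ((s : ℝ) / d) ^ κ := by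
  obtain ⟨C, κ, p, hκ, h⟩ := h J₁ Λ k Γ hΓ
  refine ⟨|C|, κ, p, abs_nonneg _, hκ, fun s d hs hd mo S r hr ⟨m₁, T, a1, a2, a3⟩ => ?_⟩
  have e : C * ((s : ℝ) / d) ^ κ ≤ |C| * ((s : ℝ) / d) ^ κ :=
    mul_le_mul_of_nonneg_right (le_abs_self _) (by positivity)
  refine ⟨fun y j b1 b2 b3 b4 b5 b6 => ?_, fun mo' S' r' hr' ⟨m₂, T', c1, c2, c3⟩ y j b1 b2 b3 => ?_⟩
  · refine le_of_tendsto (((a3 _ y j).sub ((a3 _ _ _).mul (a3 _ _ _))).abs.mul_const _) ?_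
    filter_upwards [a1, eventually_all.2 fun i => a2 _ (b1 i)] with n k1 k2
    exact ((h s d hs hd _ _ r hr k1).1 y j k2 b2 b3 b4 b5 b6).trans e
  · refine le_of_tendsto (((a3 _ y j).sub (c3 _ y j)).abs.mul_const _) ?_
    filter_upwards [a1, c1, eventually_all.2 fun i => (a2 _ (b1 i).1).and (c2 _ (b1 i).2)] with
      n k1 k2 k3
    exact ((h s d hs hd _ _ r hr k1).2 _ _ r' hr' k2 y j k3 b2 b3).trans e

/-- The moments are polynomials in the shifts. -/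
def Mom.Pol (mo : Mom) : Prop :=
  ∀ m y j e t, mo m y j e t = ∑ s ∈ t.powerset, (∏ k ∈ t \ s, -e k) * mo m y j 0 s

theorem prod_shift {m : ℕ} (f e : Fin m → ℝ) (t : Finset (Fin m)) : ∏ k ∈ t, (f k - e k) =
    ∑ s ∈ t.powerset, (∏ k ∈ t \ s, -e k) * ∏ k ∈ s, (f k - (0 : Fin m → ℝ) k) := by
  simp only [sub_eq_add_neg (f _) (e _), prod_add, Pi.zero_apply, sub_zero]
  exact sum_congr rfl fun s _ => mul_comm _ _

theorem cen_lim {mo : ℕ → Mom} {mo₀ : Mom} (h1 : ∀ n, (mo n).Pol) (h0 : mo₀.Pol) {m : ℕ}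
    {y : Fin m → Site} {j : Fin m → Fin 2}
    (h : ∀ t, Tendsto (fun n => mo n m y j 0 t) atTop (𝓝 (mo₀ m y j 0 t))) :
    Tendsto (fun n => cen (mo n) y j) atTop (𝓝 (cen mo₀ y j)) := by
  unfold cen
  rw [h0]
  refine (tendsto_finsetSum _ fun t _ => (tendsto_finsetProd _ fun k _ => (h {k}).neg).mul
    (h t)).congr fun n => (h1 n m y j _ _).symm

theorem pol_int (μ : Measure Config) [IsFiniteMeasure μ] :
    (momE fun F => ∫ σ, F σ ∂μ).Pol := fun m y j e t => by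
  have c : ∀ x, Continuous fun σ : Config => sp (σ x) := fun x =>
    (continuous_of_discreteTopology (f := sp)).comp (continuous_apply x)
  unfold momE
  simp only [← integral_const_mul]
  rw [← integral_finsetSum]
  · exact integral_congr_ae (Eventually.of_forall fun σ => prod_shift _ e t)
  · exact fun s _ => (U1.integrable_of_cont (continuous_finsetProd _
      fun k _ => ((c _).mul (c _)).sub continuous_const) μ).const_mul _

/-- The moments in the antiperiodic sector. -/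
noncomputable def momA (q : Par) (M : ℕ) : Mom := fun _ y j e t =>
  (Zw q (sec (M + 1) AA) 1)⁻¹ * Zw q (sec (M + 1) AA)
    fun n => ∏ k ∈ t, (sgn (n (yE (M + 1) y j k, dE y j k)) - e k)

theorem pol_aa (q : Par) (M : ℕ) : (momA q M).Pol := fun m y j e t => by
  unfold momA
  rw [funext fun n : Tor (M + 1) × Fin 2 → Bool =>
    prod_shift (fun k => sgn (n (yE (M + 1) y j k, dE y j k))) e t, U4.Zw_sum, mul_sum]
  exact sum_congr rfl fun s _ => mul_left_comm _ _ _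

theorem momA_lim {J lam β : ℝ} (hr : U4.Rel J lam β q) {μ : Measure Config}
    (hμ : IsTorusState J lam q.V β μ) {m : ℕ} (y : Fin m → Site) (j : Fin m → Fin 2)
    (t : Finset (Fin m)) : Tendsto (fun M => U4.aa q M fun c => ∏ k ∈ t, sgn (c (dualE (y k) (j k))))
      atTop (𝓝 (∫ σ, ∏ k ∈ t, sp (σ (y k)) * sp (σ (y k + dir (j k))) ∂μ)) := by
  classical
  obtain ⟨o, o1, o2⟩ := hr.lim (U4.Loc.prod t fun k => U4.Loc.sgn (dualE (y k) (j k)))
    (F := fun σ => ∏ k ∈ t, sp (σ (y k)) * sp (σ (y k + dir (j k))))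
    fun M s => prod_congr rfl fun k _ => (sgn_dom s _ _).symm
  rwa [tendsto_nhds_unique o1 (hμ.tendsto _ (univ.image y ∪ univ.image fun k => y k + dir (j k))
    fun σ σ' h => prod_congr rfl fun k _ => by
      rw [h _ (mem_union_left _ (mem_image_of_mem _ (mem_univ k))),
        h _ (mem_union_right _ (mem_image_of_mem (fun k => y k + dir (j k)) (mem_univ k)))])] at o2

theorem qu_flat {M : ℕ} [NeZero M] {A : Gauge M} (hA : ∀ f, flux A f = 1) {ε : ℝ} (hε : 0 < ε)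
    (hL : 1 ≤ L) (h1 : 1 ≤ ε * L) (k N J : ℕ) : QU L ε k N M A J := by
  have hL' : (1 : ℝ) ≤ (L : ℝ) ^ 2 := one_le_pow₀ (by exact_mod_cast hL)
  have h2 := min_le_left (1 / 8 : ℝ) (ε / (L : ℝ) ^ 2)
  have h3 := min_le_right (1 / 8 : ℝ) (ε / (L : ℝ) ^ 2)
  have h0 : 0 < min (1 / 8 : ℝ) (ε / (L : ℝ) ^ 2) := by positivity
  generalize min (1 / 8 : ℝ) (ε / (L : ℝ) ^ 2) = κ at h0 h2 h3
  rw [le_div_iff₀ (by positivity)] at h3
  have h4 : κ * (κ * (L : ℝ) ^ 2) ≤ 1 * ε := mul_le_mul (by linarith) h3 (by positivity) one_pos.le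
  have h5 : κ * κ * (L : ℝ) ^ 2 ≤ 1 * (L : ℝ) ^ 2 :=
    mul_le_mul_of_nonneg_right (by nlinarith) (by positivity)
  have e : bdlW L 8 1 κ 0 0 = κ * κ * (L : ℝ) ^ 2 := by
    simp only [bdlW, Nat.cast_zero, zero_mul, add_zero, mul_zero, zero_div]
    ring
  have n : ∀ f, ¬|flux A f| ≠ 1 := fun f h => h (by rw [hA, abs_one])
  refine ⟨∅, fun _ h => absurd h (notMem_empty _), ⟨1, le_rfl, by linarith, fun j _ =>
    ⟨κ, 0, 0, h0, by linarith, le_rfl, ?_, fun z ⟨f, _, h⟩ => absurd h (n f), fun z => ⟨∅, ∅, le_rfl,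
      fun _ h => absurd h (notMem_empty _), by simp, fun x _ ⟨f, _, h⟩ => absurd h (n f)⟩⟩⟩,
    1, le_rfl, by linarith, fun j _ _ => ⟨κ, 0, 0, h0, by linarith, le_rfl, by rw [e]; linarith,
      fun z ⟨f, _, h⟩ => absurd h (n f), fun z _ => ⟨∅, ∅, le_rfl,
      fun _ h => absurd h (notMem_empty _), by simp, fun x _ ⟨f, _, h⟩ => absurd h (n f)⟩⟩⟩
  rw [e]
  split_ifs <;> linarith

theorem apx_plane {J lam β : ℝ} (hr : U4.Rel J lam β q) {μ : Measure Config}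
    (hμ : IsTorusState J lam q.V β μ) (hL : 2 ≤ L) (hγ : 0 ≤ γ)
    (hQ : ∀ (M : ℕ) [NeZero M] (A : Gauge M) (J : ℕ), (∀ f, flux A f = 1) → Q M A J) :
    ∃ Γ : ℝ, 1 ≤ Γ ∧ ∀ S r, Apx Q q L 0 (16 * L) Γ σ γ (momE fun F => ∫ σ, F σ ∂μ) S r := by
  obtain ⟨C₀, hC₀, hg⟩ := gap_flat
  have := hμ.1
  have l1 : (2 : ℝ) ≤ L := by exact_mod_cast hL
  have z := momA_lim hr hμ (m := 0) Fin.elim0 Fin.elim0 ∅
  simp only [prod_empty, integral_const, probReal_univ, one_smul] at z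
  refine ⟨C₀ * (16 * L), by nlinarith, fun S r => ⟨momA q, fun M x => 4 * (zd x 0 + 2) ≤ M + 1, ?_,
    fun x _ => (eventually_ge_atTop (4 * (zd x 0 + 2))).mono fun M h => by omega,
    fun m y j => cen_lim (pol_aa q) (pol_int μ) fun t => ?_⟩⟩
  · filter_upwards [z.eventually_ne one_ne_zero, eventually_ge_atTop (128 + r + 16 * (q.R + 1))]
      with M z0 m1
    have z1 : Zw q (sec (M + 1) AA) 1 ≠ 0 := fun h => z0 (by rw [U4.aa, h, div_zero])
    have m3 := SS.le_nst (L := L) (by omega) (M + 1)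
    change _ ≤ 16 * sc L _ at m3
    rw [FM.sc_succ, ← mul_assoc] at m3
    have z2 : (Zw q (sec (M + 1) AA) 1)⁻¹ * ZwC q 0 (sec (M + 1) AA) 1 = 1 := by
      rw [ZwC_zero, inv_mul_cancel₀ z1]
    refine ⟨M + 1, SS.nst L (M + 1), inferInstance, Unit, univ, fun _ => sec (M + 1) AA, fun _ => 0,
      fun _ => (Zw q (sec (M + 1) AA) 1)⁻¹, by omega, fun _ _ =>
      { w := (sec_sign _).isW
        nf := fun f hf => by rw [sec_flat] at hf; norm_num at hf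
        lo := SS.nst_le (by omega)
        hi := m3
        R_le := by omega
        gap := fun φ => ?_
        cls := fun J _ _ => hQ _ _ J (sec_flat _)
        ok := Cor.ok_zero _
        off := fun _ _ _ => rfl
        wt := ⟨0, fun _ _ => by simp, fun _ => by simpa using hγ⟩ }, ?_, ?_,
      fun x hx => ⟨hx, fun _ _ f _ => sec_flat _ f⟩, fun m y j e t _ => ?_⟩
    · have g2 := (hg _ _ (sec_sign AA) (sec_flat AA) (sec_anti (M := M + 1) (by decide)) φ).1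
      simp only [RN.l2sq_univ] at g2
      refine g2.trans (mul_le_mul_of_nonneg_right (pow_le_pow_left₀ (by positivity) ?_ 2)
        (C.dot_nonneg _))
      have m4 : ((M + 1 : ℕ) : ℝ) ≤ 16 * L * sc L (SS.nst L (M + 1)) := by exact_mod_cast m3
      rw [mul_assoc]
      exact mul_le_mul_of_nonneg_left m4 (by linarith)
    · rw [univ_unique, sum_singleton, z2, abs_one]
      nlinarith
    · rw [univ_unique, sum_singleton, z2]
    · rw [univ_unique, sum_singleton, ZwC_zero, momA]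
  · simp only [momE, momA, Pi.zero_apply, sub_zero]
    exact (momA_lim hr hμ y j t).congr fun M => div_eq_inv_mul _ _

end Vale.Agent.P144Z
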